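import Vale.Agent.P354I.Core2

/-!
The topology of the space of data asymptotic to k.
-/

open scoped ContDiff ENNReal
open Set Filter Topology

namespace Vale.Agent.P354T2

open Vale.Agent.P354I
open Vale.Agent.P354T (DSm UP pm_self pm_comm pm_tri pm_mono pm_parts pm_le_of exists_real_lt
  pow_pos' up_compact qf_close h_close rho_pos wt lim_fun symm_of constr_lim baire_of_local)

variable {k : Dat} {s : ℝ}

lemma dsm (d : DS k s) : DSm d.1 := d.2.smooth

/-- The ball of radius ε for p_m. -/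
def ball (d : DS k s) (m : ℕ) (ε : ℝ≥0∞) : Set (DS k s) :=
  {d' | pm s m d'.1 d.1 < ε}

lemma isOpen_ball' (d : DS k s) (m : ℕ) (ε : ℝ≥0∞) : IsOpen (ball d m ε) :=
  TopologicalSpace.isOpen_generateFrom_of_mem ⟨d, m, ε, rfl⟩

lemma mem_ball_self' (d : DS k s) (m : ℕ) {ε : ℝ≥0∞} (h : 0 < ε) : d ∈ ball d m ε := by
  show pm s m d.1 d.1 < ε
  rwa [pm_self]

lemma ball_mem_nhds (d : DS k s) (m : ℕ) {ε : ℝ≥0∞} (h : 0 < ε) : ball d m ε ∈ 𝓝 d :=
  (isOpen_ball' d m ε).mem_nhds (mem_ball_self' d m h)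

lemma isOpen_iff_ball {S : Set (DS k s)} :
    IsOpen S ↔ ∀ d ∈ S, ∃ m ε, 0 < ε ∧ ball d m ε ⊆ S := by
  constructor
  · intro h
    induction h with
    | basic t ht =>
      obtain ⟨d0, m, ε, rfl⟩ := ht
      intro d hd
      have hd' : pm s m d.1 d0.1 < ε := hd
      obtain ⟨r, hr0, hr⟩ := ENNReal.lt_iff_exists_add_pos_lt.1 hd'
      refine ⟨m, r, by exact_mod_cast hr0, fun d' h' => ?_⟩
      have h1 : pm s m d'.1 d.1 < r := h'
      refine (pm_tri s m (dsm d') (dsm d) (dsm d0)).trans_lt (lt_of_le_of_lt ?_ hr)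
      rw [add_comm]
      exact add_le_add le_rfl h1.le
    | univ => exact fun d _ => ⟨0, 1, one_pos, subset_univ _⟩
    | inter t t' _ _ i1 i2 =>
      intro d hd
      obtain ⟨m, ε, h0, h1⟩ := i1 d hd.1
      obtain ⟨m', ε', h0', h1'⟩ := i2 d hd.2
      refine ⟨max m m', min ε ε', lt_min h0 h0', fun d' h' => ⟨h1 ?_, h1' ?_⟩⟩
      · exact ((pm_mono s (le_max_left _ _) _ _).trans_lt h').trans_le (min_le_left _ _)
      · exact ((pm_mono s (le_max_right _ _) _ _).trans_lt h').trans_le (min_le_right _ _)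
    | sUnion T _ i =>
      rintro d ⟨t, ht, hd⟩
      obtain ⟨m, ε, h0, h1⟩ := i t ht d hd
      exact ⟨m, ε, h0, h1.trans (subset_sUnion_of_mem ht)⟩
  · intro h
    refine isOpen_iff_mem_nhds.2 fun d hd => ?_
    obtain ⟨m, ε, h0, h1⟩ := h d hd
    exact mem_of_superset (ball_mem_nhds d m h0) h1

/-- Neighbourhoods contain closed balls of real radius. -/
lemma mem_nhds_iff_pm {d : DS k s} {S : Set (DS k s)} :
    S ∈ 𝓝 d ↔ ∃ (m : ℕ) (η : ℝ), 0 < η ∧
      ∀ d' : DS k s, pm s m d'.1 d.1 ≤ ENNReal.ofReal η → d' ∈ S := by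
  constructor
  · intro h
    obtain ⟨t, hts, ht, hd⟩ := mem_nhds_iff.1 h
    obtain ⟨m, ε, hε, hb⟩ := isOpen_iff_ball.1 ht d hd
    obtain ⟨η, h0, h1⟩ := exists_real_lt hε
    exact ⟨m, η, h0, fun d' h' => hts (hb (h'.trans_lt h1))⟩
  · rintro ⟨m, η, h0, h1⟩
    exact mem_of_superset (ball_mem_nhds d m (ENNReal.ofReal_pos.2 h0)) fun d' h' =>
      h1 d' (le_of_lt h')

/-- Convergence in the space of data. -/
lemma tendsto_iff_pm {ι : Type} {l : Filter ι} {u : ι → DS k s} {d : DS k s} :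
    Tendsto u l (𝓝 d) ↔
      ∀ (m : ℕ) (η : ℝ), 0 < η → ∀ᶠ n in l, pm s m (u n).1 d.1 ≤ ENNReal.ofReal η := by
  constructor
  · intro h m η h0
    filter_upwards [h (ball_mem_nhds d m (ENNReal.ofReal_pos.2 h0))] with n hn using le_of_lt hn
  · intro h S hS
    obtain ⟨m, η, h0, h1⟩ := mem_nhds_iff_pm.1 hS
    exact mem_map.2 ((h m η h0).mono fun n hn => h1 _ hn)

/-- A distance on the space of data. -/
noncomputable def ed (d d' : DS k s) : ℝ≥0∞ := ⨆ m : ℕ, min (pm s m d.1 d'.1) (2⁻¹ ^ m)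

theorem ed_self (d : DS k s) : ed d d = 0 := by simp [ed, pm_self]

theorem ed_comm (d d' : DS k s) : ed d d' = ed d' d := by simp only [ed, pm_comm s _ d.1]

theorem ed_tri (d d' d'' : DS k s) : ed d d'' ≤ ed d d' + ed d' d'' := by
  refine iSup_le fun m => ?_
  have h1 : min (pm s m d.1 d'.1) (2⁻¹ ^ m) ≤ ed d d' :=
    le_iSup (fun m : ℕ => min (pm s m d.1 d'.1) (2⁻¹ ^ m)) m
  have h2 : min (pm s m d'.1 d''.1) (2⁻¹ ^ m) ≤ ed d' d'' :=
    le_iSup (fun m : ℕ => min (pm s m d'.1 d''.1) (2⁻¹ ^ m)) m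
  refine le_trans ?_ (add_le_add h1 h2)
  have h3 := pm_tri s m (dsm d) (dsm d') (dsm d'')
  rcases le_total (pm s m d.1 d'.1) (2⁻¹ ^ m) with x | x
  · rcases le_total (pm s m d'.1 d''.1) (2⁻¹ ^ m) with b | b
    · rw [min_eq_left x, min_eq_left b]
      exact (min_le_left _ _).trans h3
    · rw [min_eq_right b]
      exact (min_le_right _ _).trans le_add_self
  · rw [min_eq_right x]
    exact (min_le_right _ _).trans le_self_add

theorem pm_lt_of_ed {d d' : DS k s} {m : ℕ} {ε : ℝ≥0∞} (h : ed d d' < min ε (2⁻¹ ^ m)) :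
    pm s m d.1 d'.1 < ε := by
  have h1 : min (pm s m d.1 d'.1) (2⁻¹ ^ m) < min ε (2⁻¹ ^ m) :=
    (le_iSup (fun m : ℕ => min (pm s m d.1 d'.1) (2⁻¹ ^ m)) m).trans_lt h
  rcases min_lt_iff.1 h1 with x | x
  · exact x.trans_le (min_le_left _ _)
  · exact absurd (x.trans_le (min_le_right _ _)) (lt_irrefl _)

theorem ed_le (d d' : DS k s) (m : ℕ) : ed d d' ≤ max (pm s m d.1 d'.1) (2⁻¹ ^ m) := by
  refine iSup_le fun n => ?_
  rcases le_total n m with x | x
  · exact (min_le_left _ _).trans ((pm_mono s x _ _).trans (le_max_left _ _))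
  · refine (min_le_right _ _).trans (le_trans ?_ (le_max_right _ _))
    exact pow_le_pow_right_of_le_one' (ENNReal.inv_le_one.2 one_le_two) x

theorem ed_basis (d : DS k s) :
    (𝓝 d).HasBasis (fun c => 0 < c) fun c => {d' | ed d d' < c} := by
  refine ⟨fun S => ⟨fun hs => ?_, fun ⟨c, hc, hs⟩ => ?_⟩⟩
  · obtain ⟨t, hts, ht, hd⟩ := mem_nhds_iff.1 hs
    obtain ⟨m, ε, hε, hb⟩ := isOpen_iff_ball.1 ht d hd
    refine ⟨min ε (2⁻¹ ^ m), lt_min hε (pow_pos' m), fun d' hd' => hts (hb ?_)⟩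
    show pm s m d'.1 d.1 < ε
    rw [pm_comm]
    exact pm_lt_of_ed hd'
  · obtain ⟨m, hm⟩ := ENNReal.exists_inv_two_pow_lt hc.ne'
    refine mem_of_superset (ball_mem_nhds d m hc) fun d' hd' => hs ?_
    have h1 : pm s m d'.1 d.1 < c := hd'
    rw [pm_comm] at h1
    exact (ed_le d d' m).trans_lt (max_lt h1 hm)

/-- The space of data is first countable. -/
theorem firstCountable : FirstCountableTopology (DS k s) := by
  let _ : PseudoEMetricSpace (DS k s) :=
    PseudoEMetricSpace.ofEDistOfTopology ed ed_self ed_comm ed_tri ed_basis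
  infer_instance

/-- Subsets of the space of data are sequential spaces. -/
theorem sequential (U : Set (DS k s)) : SequentialSpace U := by
  have := firstCountable (k := k) (s := s)
  infer_instance

/-- All data are uniformly positive, if the reference data are. -/
lemma up_all (hs : 0 < s) {c : ℝ} (c0 : 0 < c) (c1 : UP k c) (d : DS k s) :
    ∃ c > 0, UP d.1 c := by
  set P := (pm s 0 d.1 k).toReal with hP
  have P0 : 0 ≤ P := ENNReal.toReal_nonneg
  have hd : pm s 0 d.1 k ≤ ENNReal.ofReal P := by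
    rw [hP, ENNReal.ofReal_toReal (d.2.finite 0).ne]
  obtain ⟨L, hL⟩ := eventually_atTop.1
    ((tendsto_rpow_atTop hs).eventually (eventually_ge_atTop (6 * P / c)))
  obtain ⟨c', c0', c1'⟩ := up_compact (dsm d) (fun y hy => (d.2.pos y hy).1)
    (K := Metric.closedBall 0 (Real.exp L) \ Metric.ball 0 (Real.exp (-L)))
    ((isCompact_closedBall _ _).diff Metric.isOpen_ball) fun y hy e =>
      hy.2 (by rw [e]; exact Metric.mem_ball_self (Real.exp_pos _))
  refine ⟨min (c / 2) c', by positivity, fun y hy v => ?_⟩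
  have v0 : 0 ≤ ∑ i, v i ^ 2 := Finset.sum_nonneg fun _ _ => sq_nonneg _
  have n0 : 0 < ‖y‖ := norm_pos_iff.2 hy
  by_cases hl : L ≤ |Real.log ‖y‖|
  · have h1 : 6 * P / c ≤ √(1 + Real.log ‖y‖ ^ 2) ^ s :=
      hL _ (hl.trans (Real.abs_le_sqrt (by linarith)))
    have h2 := qf_close (A := d.1.h y) (B := k.h y) (t := ‖y‖ ^ 2) (η := c / 6)
      (by positivity) (fun i j => by
        have h3 := h_close P0 hd hy i j
        have h4 : 0 < √(1 + Real.log ‖y‖ ^ 2) ^ s := Real.rpow_pos_of_pos (rho_pos _) _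
        rw [div_le_iff₀ c0] at h1
        refine le_of_mul_le_mul_left ?_ h4
        simp only [wt, add_zero] at h3
        nlinarith) v
    have h3 := c1 y hy v
    have h4 := mul_le_mul_of_nonneg_right (min_le_left (c / 2) c') v0
    linarith
  · have h1 := abs_lt.1 (not_le.1 hl)
    refine (mul_le_mul_of_nonneg_right (min_le_right _ _) v0).trans (c1' y ⟨?_, ?_⟩ v)
    · rw [mem_closedBall_zero_iff]
      exact ((Real.log_lt_iff_lt_exp n0).1 h1.2).le
    · rw [mem_ball_zero_iff, not_lt]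
      exact ((Real.lt_log_iff_exp_lt n0).1 h1.1).le

/-- Cauchy sequences of uniformly positive data converge. -/
theorem lim_data (hs : 0 ≤ s) (hk : DSm k) {c : ℝ} (hc : 0 < c)
    {u : ℕ → DS k s} (hu : ∀ n, UP (u n).1 c)
    (hC : ∀ (m : ℕ) (ε : ℝ), 0 < ε → ∃ N, ∀ n ≥ N, ∀ n' ≥ N,
      pm s m (u n).1 (u n').1 ≤ ENNReal.ofReal ε) :
    ∃ d : DS k s, ∀ (m : ℕ) (ε : ℝ), 0 < ε → ∃ N, ∀ n ≥ N,
      pm s m (u n).1 d.1 ≤ ENNReal.ofReal ε := by
  have lh := fun i j => lim_fun (s := s) (fun n => (dsm (u n) i j).1) fun m ε hε =>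
    (hC m ε hε).imp fun N hN n hn n' hn' => (pm_parts (hN n hn n' hn') i j).1
  have lK := fun i j => lim_fun (s := s) (fun n => (dsm (u n) i j).2) fun m ε hε =>
    (hC m ε hε).imp fun N hN n hn n' hn' => (pm_parts (hN n hn n' hn') i j).2
  choose Gh sh th ch using lh
  choose GK sK tK cK using lK
  let d : Dat := ⟨fun y => Matrix.of fun i j => Gh i j y, fun y => Matrix.of fun i j => GK i j y⟩
  have sd : DSm d := fun i j => ⟨sh i j, sK i j⟩
  have conv : ∀ (m : ℕ) (ε : ℝ), 0 < ε → ∃ N, ∀ n ≥ N, pm s m (u n).1 d ≤ ENNReal.ofReal ε := by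
    intro m ε hε
    have h7 : 0 < ε / 18 := by positivity
    have e : ∀ᶠ n in atTop, ∀ i j, wn s m (fun y => (u n).1.h y i j - d.h y i j) ≤
        ENNReal.ofReal (ε / 18) ∧ wn s m (fun y => (u n).1.K y i j - d.K y i j) ≤
        ENNReal.ofReal (ε / 18) :=
      eventually_all.2 fun i => eventually_all.2 fun j =>
        (eventually_atTop.2 (ch i j m _ h7)).and (eventually_atTop.2 (cK i j m _ h7))
    obtain ⟨N, hN⟩ := eventually_atTop.1 e
    refine ⟨N, fun n hn => (pm_le_of h7.le (hN n hn)).trans (le_of_eq ?_)⟩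
    congr 1
    ring
  have t0 : ∀ {F : ℕ → X → ℝ} {G : X → ℝ} {y : X}, Tendsto (fun n => iteratedFDeriv ℝ 0 (F n) y)
      atTop (𝓝 (iteratedFDeriv ℝ 0 G y)) → Tendsto (fun n => F n y) atTop (𝓝 (G y)) := fun h => by
    have := ((continuousMultilinearCurryFin0 ℝ X ℝ).continuous.tendsto _).comp h
    simpa [Function.comp_def] using this
  have hpos : ∀ y ≠ 0, (d.h y).PosDef := by
    intro y hy
    obtain ⟨N, hN⟩ := conv 0 (c / 6) (by positivity)
    have h1 := hN N le_rfl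
    rw [pm_comm] at h1
    refine ((hu N).near hs (by positivity) h1).pos (by linarith) hy ?_
    refine Matrix.IsSymm.ext fun i j => tendsto_nhds_unique (t0 (th j i 0 y hy)) ?_
    exact (t0 (th i j 0 y hy)).congr fun n => ((symm_of ((u n).2.pos y hy).1).apply i j).symm
  have lim := fun y (hy : y ≠ 0) => constr_lim (u := fun n => (u n).1) hy (fun n => dsm (u n)) sd
    (fun n => ((u n).2.pos y hy).1.det_pos.ne') (hpos y hy).det_pos.ne'
    (fun i j n => th i j n y hy) (fun i j n => tK i j n y hy)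
  refine ⟨⟨d, sd, fun y hy => ⟨hpos y hy, ?_⟩, fun m => ?_, fun y hy => ?_, fun y hy j => ?_⟩, conv⟩
  · refine Matrix.IsSymm.ext fun i j => tendsto_nhds_unique (t0 (tK j i 0 y hy)) ?_
    exact (t0 (tK i j 0 y hy)).congr fun n => (((u n).2.pos y hy).2.apply i j).symm
  · obtain ⟨N, hN⟩ := conv m 1 one_pos
    have h1 := hN N le_rfl
    rw [pm_comm] at h1
    exact (pm_tri s m sd (dsm (u N)) hk).trans_lt (ENNReal.add_lt_top.2
      ⟨h1.trans_lt ENNReal.ofReal_lt_top, (u N).2.finite m⟩)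
  · refine tendsto_nhds_unique (lim y hy).1 ?_
    simp only [(u _).2.hamilton y hy]
    exact tendsto_const_nhds
  · refine tendsto_nhds_unique ((lim y hy).2 j) ?_
    simp only [(u _).2.momentum y hy j]
    exact tendsto_const_nhds

/-- Open subsets of small balls are Baire spaces. -/
theorem baire_ball (hs : 0 ≤ s) (hk : DSm k) (d0 : DS k s) {c : ℝ} (hc : 0 < c)
    (h0 : UP d0.1 c) : BaireSpace (ball d0 0 (ENNReal.ofReal (c / 6))) := by
  let _ : PseudoEMetricSpace (DS k s) :=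
    PseudoEMetricSpace.ofEDistOfTopology ed ed_self ed_comm ed_tri ed_basis
  let C : Set (DS k s) := {d | pm s 0 d.1 d0.1 ≤ ENNReal.ofReal (c / 6)}
  have hC : CompleteSpace C := by
    refine EMetric.complete_of_cauchySeq_tendsto fun u hu => ?_
    obtain ⟨d, hd⟩ := lim_data hs hk (c := c - 3 * (c / 6)) (by linarith)
      (u := fun n => (u n).1) (fun n => h0.near hs (by positivity) (u n).2)
      (fun m ε hε => by
        obtain ⟨N, hN⟩ := EMetric.cauchySeq_iff.1 hu (min (ENNReal.ofReal ε) (2⁻¹ ^ m))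
          (lt_min (ENNReal.ofReal_pos.2 hε) (pow_pos' m))
        exact ⟨N, fun n hn n' hn' => (pm_lt_of_ed (hN n hn n' hn')).le⟩)
    have hdC : d ∈ C := by
      refine ENNReal.le_of_forall_pos_le_add fun ε hε _ => ?_
      obtain ⟨N, hN⟩ := hd 0 ε hε
      have h1 := pm_tri s 0 (dsm d) (dsm (u N).1) (dsm d0)
      rw [pm_comm s 0 d.1 (u N).1.1] at h1
      refine h1.trans ?_
      rw [add_comm]
      exact add_le_add (u N).2 ((hN N le_rfl).trans (by simp))
    refine ⟨⟨d, hdC⟩, tendsto_subtype_rng.2 (tendsto_iff_pm.2 fun m ε hε => ?_)⟩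
    exact eventually_atTop.2 (hd m ε hε)
  have hB : BaireSpace C := inferInstance
  have hsub : ball d0 0 (ENNReal.ofReal (c / 6)) ⊆ C := fun d hd =>
    le_of_lt (show pm s 0 d.1 d0.1 < _ from hd)
  exact (IsOpenEmbedding.inclusion hsub
    ((isOpen_ball' d0 0 _).preimage continuous_subtype_val)).baireSpace

/-- The space of data is a Baire space. -/
theorem baire (hs : 0 < s) {c : ℝ} (c0 : 0 < c) (hk : DSm k) (c1 : UP k c) :
    BaireSpace (DS k s) := by
  refine baire_of_local fun d => ?_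
  obtain ⟨c', hc, h0⟩ := up_all hs c0 c1 d
  exact ⟨_, isOpen_ball' d 0 _, mem_ball_self' d 0 (ENNReal.ofReal_pos.2 (by positivity)),
    baire_ball hs.le hk d hc h0⟩

theorem isOpen_Bl (hk : DSm k) (m : ℕ) (η : ℝ) : IsOpen (Bl k s m η) := by
  refine isOpen_iff_ball.2 fun d hd => ?_
  have hd' : pm s m d.1 k < ENNReal.ofReal η := hd
  obtain ⟨r, hr0, hr⟩ := ENNReal.lt_iff_exists_add_pos_lt.1 hd'
  refine ⟨m, r, by exact_mod_cast hr0, fun d' h' => ?_⟩
  have h1 : pm s m d'.1 d.1 < r := h'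
  refine (pm_tri s m (dsm d') (dsm d) hk).trans_lt (lt_of_le_of_lt ?_ hr)
  rw [add_comm]
  exact add_le_add le_rfl h1.le

theorem top2 : TOP2 := by
  intro k s c hs c0 hk c1
  have hB := baire hs c0 hk.1 c1
  refine ⟨hB, firstCountable, isOpen_Bl hk.1, fun _ _ => mem_nhds_iff_pm, up_all hs c0 c1,
    fun U hU P h => ?_⟩
  have : BaireSpace U := hU.isOpenEmbedding_subtypeVal.baireSpace
  refine dense_of_mem_residual ?_
  have e : {d : U | ¬ P d}ᶜ = {d : U | P d} := by
    ext d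
    simp
  rw [← e]
  exact h

end Vale.Agent.P354T2
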